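import Vale.Agent.P078G.Cut
import Vale.Agent.P078.CtxB
import Vale.Agent.P078.Extr

/-! A maximal abelian subalgebra `C(X)`: projections and pinchings. -/

namespace Vale.Agent.P078G

open Filter
open Vale.Agent.P078 (ind ind_apply ind_of_mem ind_of_notMem ind_val isClopen_preimage cx cx_apply)
open scoped Topology ComplexConjugate

/-- A masa `ι (C(X))` of an algebra with range projections. -/
structure Msa (M X : Type*) [CStarAlgebra M] [TopologicalSpace X] [CompactSpace X] where
  ι : C(X, ℂ) →⋆ₐ[ℂ] M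
  inj : Function.Injective ι
  masa : ∀ m, (∀ f, m * ι f = ι f * m) → ∃ f, ι f = m
  rp : RP M

variable {M X : Type*} [CStarAlgebra M] [TopologicalSpace X] [CompactSpace X]

lemma comm_of_near {y a : M} (hy : ∀ ε > 0, ∃ x, x * a = a * x ∧ ‖y - x‖ < ε) :
    y * a = a * y := by
  refine (isClosed_eq (continuous_mul_const a) (continuous_const_mul a)).closure_subset
    (Metric.mem_closure_iff.2 fun ε hε => ?_)
  obtain ⟨x, hx, h⟩ := hy ε hε
  exact ⟨x, hx, by rwa [dist_eq_norm]⟩

namespace Msa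

variable (C : Msa M X)

/-- The projection of a clopen set. -/
noncomputable def pj (U : Set X) : M := C.ι (ind U)

/-- Pinching along the fibres of `c`. -/
noncomputable def pinch {κ : Type*} [Fintype κ] (c : X → κ) (y : M) : M :=
  ∑ k, C.pj (c ⁻¹' {k}) * y * C.pj (c ⁻¹' {k})

variable {U V : Set X}

lemma ι_comm (f g : C(X, ℂ)) : C.ι f * C.ι g = C.ι g * C.ι f := by
  rw [← map_mul, ← map_mul, mul_comm]

lemma norm_ι (f : C(X, ℂ)) : ‖C.ι f‖ = ‖f‖ := by
  exact NonUnitalStarAlgHom.norm_map C.ι C.inj f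

lemma pj_proj (U : Set X) : IsStarProjection (C.pj U) := by
  refine ⟨?_, ?_⟩
  · rw [IsIdempotentElem, pj, ← map_mul]
    congr 1
    ext x
    rcases ind_val U x with h | h <;> simp [h]
  · rw [IsSelfAdjoint, pj, ← map_star]
    congr 1
    ext x
    rcases ind_val U x with h | h <;> simp [h]

lemma pj_mul (hU : IsClopen U) (hV : IsClopen V) : C.pj U * C.pj V = C.pj (U ∩ V) := by
  rw [pj, pj, pj, ← map_mul]
  congr 1
  ext x
  simp [ind_apply hU, ind_apply hV, ind_apply (hU.inter hV), Set.inter_indicator_one]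

lemma pj_empty : C.pj ∅ = 0 := by
  rw [pj, ← map_zero C.ι]
  congr 1
  ext x
  simp [ind_apply isClopen_empty]

lemma pj_univ : C.pj Set.univ = 1 := by
  rw [pj, ← map_one C.ι]
  congr 1
  ext x
  simp [ind_apply isClopen_univ]

lemma pj_compl (hU : IsClopen U) : C.pj Uᶜ = 1 - C.pj U := by
  rw [pj, pj, ← map_one C.ι, ← map_sub]
  congr 1
  ext x
  by_cases hx : x ∈ U <;> simp [ind_apply hU, ind_apply hU.compl, hx]

lemma pj_union (hU : IsClopen U) (hV : IsClopen V) (h : Disjoint U V) :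
    C.pj (U ∪ V) = C.pj U + C.pj V := by
  rw [pj, pj, pj, ← map_add]
  congr 1
  ext x
  simp [ind_apply hU, ind_apply hV, ind_apply (hU.union hV), Set.indicator_union_of_disjoint h]

lemma pj_eq_zero (hU : IsClopen U) (h : C.pj U = 0) : U = ∅ := by
  have h1 : ind U = 0 := C.inj (by rw [map_zero]; exact h)
  refine Set.eq_empty_of_forall_notMem fun x hx => ?_
  have := ind_of_mem hU hx
  rw [h1] at this
  exact zero_ne_one this

lemma sum_pj {κ : Type*} {c : X → κ} (hc : IsLocallyConstant c) (s : Finset κ) :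
    ∑ k ∈ s, C.pj (c ⁻¹' {k}) = C.pj (c ⁻¹' s) := by
  classical
  simp only [pj]
  rw [← map_sum]
  congr 1
  ext x
  simp [ind_apply (isClopen_preimage hc _), Set.indicator_apply]

lemma exists_pj {f : C(X, ℂ)} (hf : IsStarProjection (C.ι f)) :
    ∃ U, IsClopen U ∧ C.ι f = C.pj U := by
  have h1 : f * f = f := C.inj (by rw [map_mul]; exact hf.isIdempotentElem)
  have h2 : ∀ x, f x = 0 ∨ f x = 1 := fun x => by
    have : f x * (f x - 1) = 0 := by
      rw [mul_sub, mul_one, ← ContinuousMap.mul_apply, h1, sub_self]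
    exact (mul_eq_zero.1 this).imp id sub_eq_zero.1
  have hU : IsClopen {x | f x = 1} := by
    refine ⟨isClosed_eq f.continuous continuous_const, ?_⟩
    have : {x | f x = 1} = {x | f x ≠ 0} := by
      ext x
      rcases h2 x with h | h <;> simp [h]
    rw [this]
    exact isOpen_ne_fun f.continuous continuous_const
  refine ⟨_, hU, congrArg _ ?_⟩
  ext x
  rcases h2 x with h | h
  · rw [h, ind_of_notMem hU (by simp [h])]
  · rw [h, ind_of_mem hU h]

lemma pj_star (U : Set X) : star (C.pj U) = C.pj U := (C.pj_proj U).isSelfAdjoint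

lemma pj_idem (U : Set X) : C.pj U * C.pj U = C.pj U := (C.pj_proj U).isIdempotentElem

lemma pj_comm_ι (U : Set X) (f : C(X, ℂ)) : C.pj U * C.ι f = C.ι f * C.pj U := C.ι_comm _ _

section pinch

variable {κ : Type*} [Fintype κ] {c : X → κ}

lemma pinch_add (y z : M) : C.pinch c (y + z) = C.pinch c y + C.pinch c z := by
  simp only [pinch, mul_add, add_mul, Finset.sum_add_distrib]

lemma pinch_smul (a : ℂ) (y : M) : C.pinch c (a • y) = a • C.pinch c y := by
  simp only [pinch, mul_smul_comm, smul_mul_assoc, Finset.smul_sum]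

lemma pinch_star (y : M) : star (C.pinch c y) = C.pinch c (star y) := by
  simp only [pinch, star_sum, star_mul, pj_star, mul_assoc]

lemma sum_fib (hc : IsLocallyConstant c) : ∑ k, C.pj (c ⁻¹' {k}) = 1 := by
  rw [C.sum_pj hc, Finset.coe_univ, Set.preimage_univ, pj_univ]

omit [Fintype κ] in
lemma fib_mul (hc : IsLocallyConstant c) {j k : κ} (h : j ≠ k) :
    C.pj (c ⁻¹' {j}) * C.pj (c ⁻¹' {k}) = 0 := by
  rw [C.pj_mul (isClopen_preimage hc _) (isClopen_preimage hc _), ← Set.preimage_inter,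
    Set.singleton_inter_of_notMem (by simpa using h), Set.preimage_empty, pj_empty]

lemma pinch_of_comm (hc : IsLocallyConstant c) {y : M}
    (h : ∀ k, y * C.pj (c ⁻¹' {k}) = C.pj (c ⁻¹' {k}) * y) : C.pinch c y = y := by
  simp only [pinch, mul_assoc, h]
  simp only [← mul_assoc, pj_idem]
  rw [← Finset.sum_mul, C.sum_fib hc, one_mul]

lemma pinch_comm (hc : IsLocallyConstant c) {U : Set X} (hU : IsClopen U)
    (h : ∀ x x', c x = c x' → x ∈ U → x' ∈ U) (y : M) :
    C.pinch c y * C.pj U = C.pj U * C.pinch c y := by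
  rw [pinch, Finset.sum_mul, Finset.mul_sum]
  refine Finset.sum_congr rfl fun k _ => ?_
  rw [mul_assoc, ← mul_assoc (C.pj U), ← mul_assoc (C.pj U),
    C.pj_mul (isClopen_preimage hc _) hU, C.pj_mul hU (isClopen_preimage hc _), Set.inter_comm U]
  by_cases hk : (c ⁻¹' {k} ∩ U).Nonempty
  · obtain ⟨x, hx, hxU⟩ := hk
    rw [Set.inter_eq_left.2 fun x' hx' => h x x' (hx.trans hx'.symm) hxU]
  · rw [Set.not_nonempty_iff_eq_empty.1 hk, pj_empty]
    simp

lemma pinch_pinch (hc : IsLocallyConstant c) {κ' : Type*} [Fintype κ'] {c' : X → κ'}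
    (hc' : IsLocallyConstant c') (h : ∀ x x', c' x = c' x' → c x = c x') (y : M) :
    C.pinch c (C.pinch c' y) = C.pinch c' y :=
  C.pinch_of_comm hc fun _ => C.pinch_comm hc' (isClopen_preimage hc _)
    (fun x x' e hx => by rwa [Set.mem_preimage, ← h x x' e]) y

lemma blk_mul (hc : IsLocallyConstant c) (y z : M) : C.pinch c y * C.pinch c z =
    ∑ k, C.pj (c ⁻¹' {k}) * (y * C.pj (c ⁻¹' {k}) * z) * C.pj (c ⁻¹' {k}) := by
  rw [pinch, pinch, Finset.sum_mul_sum]
  refine Finset.sum_congr rfl fun k _ => ?_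
  rw [Finset.sum_eq_single k (fun j _ hj => ?_) (by simp)]
  · simp only [mul_assoc]
    rw [← mul_assoc (C.pj _) (C.pj _), pj_idem]
  · simp only [mul_assoc]
    rw [← mul_assoc (C.pj _) (C.pj _), C.fib_mul hc hj.symm]
    simp

lemma pinch_ι (hc : IsLocallyConstant c) (f : C(X, ℂ)) : C.pinch c (C.ι f) = C.ι f := by
  exact C.pinch_of_comm hc fun _ => C.ι_comm _ _

lemma norm_pinch_le (hc : IsLocallyConstant c) (y : M) : ‖C.pinch c y‖ ≤ ‖y‖ := by
  let _ := CStarAlgebra.spectralOrder M
  have _ := CStarAlgebra.spectralOrderedRing M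
  have h1 : star (C.pinch c y) * C.pinch c y ≤ algebraMap ℝ M (‖y‖ * ‖y‖) := by
    rw [pinch_star, C.blk_mul hc, Algebra.algebraMap_eq_smul_one, ← C.sum_fib hc, Finset.smul_sum]
    refine Finset.sum_le_sum fun k _ => ?_
    have h2 : star (C.pj (c ⁻¹' {k})) * (star y * C.pj (c ⁻¹' {k}) * y) * C.pj (c ⁻¹' {k}) ≤
        ‖star y * C.pj (c ⁻¹' {k}) * y‖ • (star (C.pj (c ⁻¹' {k})) * C.pj (c ⁻¹' {k})) :=
      CStarAlgebra.star_left_conjugate_le_norm_smul (IsSelfAdjoint.conjugate' (C.pj_star _) y)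
    rw [pj_star, pj_idem] at h2
    refine h2.trans (smul_le_smul_of_nonneg_right ?_ (C.pj_proj _).nonneg)
    have h3 := (C.pj_proj (c ⁻¹' {k})).norm_le
    calc ‖star y * C.pj (c ⁻¹' {k}) * y‖ ≤ ‖star y‖ * ‖C.pj (c ⁻¹' {k})‖ * ‖y‖ :=
          norm_mul₃_le
      _ ≤ ‖star y‖ * 1 * ‖y‖ := by gcongr
      _ = ‖y‖ * ‖y‖ := by rw [norm_star, mul_one]
  rw [← CStarAlgebra.norm_le_iff_le_algebraMap _ (by positivity) (star_mul_self_nonneg _),
    CStarRing.norm_star_mul_self] at h1
  exact abs_le_of_sq_le_sq' (by nlinarith) (norm_nonneg y) |>.2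

lemma pinch_pow (hc : IsLocallyConstant c) (y : M) {n : ℕ} (hn : n ≠ 0) :
    C.pinch c y ^ n = ∑ k, (C.pj (c ⁻¹' {k}) * y * C.pj (c ⁻¹' {k})) ^ n := by
  obtain ⟨n, rfl⟩ := Nat.exists_eq_succ_of_ne_zero hn
  induction n with
  | zero => simp [pinch]
  | succ n ih =>
    rw [pow_succ, ih n.succ_ne_zero, pinch, Finset.sum_mul_sum]
    refine Finset.sum_congr rfl fun k _ => ?_
    rw [Finset.sum_eq_single k (fun j _ hj => ?_) (by simp), ← pow_succ]
    rw [pow_succ]
    simp only [mul_assoc]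
    rw [← mul_assoc (C.pj _) (C.pj _), C.fib_mul hc hj.symm]
    simp

end pinch

variable [T2Space X]

include C in
lemma isClopen_closure (f : C(X, ℝ)) : IsClopen (closure {x | 0 < f x}) := by
  let a : C(X, ℂ) := cx ⟨fun x => max (f x) 0, by fun_prop⟩
  obtain ⟨e, he, h⟩ := C.rp (C.ι a) (by rw [← map_star]; congr 1; ext x; simp [a])
  have h0 : (1 - e) * C.ι a = 0 := (h _).2 he.one_sub_mul_self
  have h1 : ∀ g, C.ι g * e = e * C.ι g * e := fun g => by
    have : (1 - e) * C.ι g * e = 0 :=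
      (h _).1 (by rw [mul_assoc, ι_comm, ← mul_assoc, h0, zero_mul])
    rwa [sub_mul, sub_mul, one_mul, sub_eq_zero] at this
  obtain ⟨g, rfl⟩ := C.masa e fun g => by
    have := congrArg star (h1 (star g))
    simp only [star_mul, ← map_star, star_star, he.isSelfAdjoint.star_eq] at this
    exact this.trans ((mul_assoc _ _ _).symm.trans (h1 g).symm)
  obtain ⟨U, hU, e⟩ := C.exists_pj he
  rw [e] at h h0
  have : closure {x | 0 < f x} = U := by
    refine (closure_minimal (fun x hx => ?_) hU.isClosed).antisymm fun x hx => ?_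
    · by_contra hn
      rw [← C.pj_compl hU, pj, ← map_mul, ← map_zero C.ι] at h0
      have h2 := congrArg (fun k : C(X, ℂ) => k x) (C.inj h0)
      have hx' : 0 < f x := hx
      simp [ind_of_mem hU.compl hn, a, hx'.not_ge] at h2
    · by_contra hn
      obtain ⟨k, k0, k1, -⟩ := exists_continuous_zero_one_of_isClosed isClosed_closure
        isClosed_singleton (Set.disjoint_singleton_right.2 hn)
      have h2 : C.ι (cx k) * C.pj U = 0 := by
        refine (h _).1 ?_
        rw [← map_mul, ← map_zero C.ι]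
        congr 1
        ext y
        by_cases hy : 0 < f y
        · simp [k0 (subset_closure hy)]
        · simp [a, not_lt.1 hy]
      rw [pj, ← map_mul, ← map_zero C.ι] at h2
      have h3 := congrArg (fun k : C(X, ℂ) => k x) (C.inj h2)
      simp [ind_of_mem hU hx, k1 rfl] at h3
  rwa [this]

include C in
lemma totallyDisconnected : TotallyDisconnectedSpace X := by
  have : TotallySeparatedSpace X := by
    refine totallySeparatedSpace_iff_exists_isClopen.2 fun x y hxy => ?_
    obtain ⟨k, k0, k1, -⟩ := exists_continuous_zero_one_of_isClosed isClosed_singleton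
      isClosed_singleton (Set.disjoint_singleton.2 hxy.symm)
    refine ⟨_, C.isClopen_closure ⟨fun z => k z - 1 / 2, by fun_prop⟩, subset_closure ?_,
      fun hy => ?_⟩
    · simp [k1 rfl]
      norm_num
    · have h : y ∈ {z | 0 ≤ k z - 1 / 2} :=
        closure_minimal (s := {z | 0 < k z - 1 / 2}) (t := {z | 0 ≤ k z - 1 / 2})
          (fun z (hz : 0 < k z - 1 / 2) => hz.le) (isClosed_le continuous_const (by fun_prop)) hy
      simp [k0 rfl] at h
      norm_num at h
  infer_instance

lemma mem_of_comm_pj {y : M} (h : ∀ U, IsClopen U → y * C.pj U = C.pj U * y) :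
    ∃ f, C.ι f = y := by
  have := C.totallyDisconnected
  refine C.masa y fun f => (comm_of_near fun ε hε => ?_).symm
  obtain ⟨n, g, v, hg, hv⟩ := f.exists_finite_approximation_of_mem_nhds_diagonal
    (S := {p | dist p.1 p.2 < ε}) ((isOpen_lt (by fun_prop) continuous_const).mem_nhdsSet.2
      (by rintro ⟨a, b⟩ (rfl : a = b); simpa using hε))
  have hc : IsLocallyConstant g := (IsLocallyConstant.iff_continuous g).2 hg
  let k : C(X, ℂ) := ⟨v ∘ g, (hc.comp v).continuous⟩
  have hk : C.ι k = ∑ i, v i • C.pj (g ⁻¹' {i}) := by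
    simp only [pj, ← map_smul, ← map_sum]
    congr 1
    ext x
    simp only [k, ContinuousMap.sum_apply, ContinuousMap.smul_apply,
      ind_apply (isClopen_preimage hc _)]
    rw [Finset.sum_eq_single (g x) (fun i _ hi => by simp [hi.symm]) (by simp)]
    simp
  refine ⟨C.ι k, ?_, ?_⟩
  · simp only [hk, Finset.sum_mul, Finset.mul_sum, smul_mul_assoc, mul_smul_comm,
      h _ (isClopen_preimage hc _)]
  · rw [← map_sub, norm_ι, ContinuousMap.norm_lt_iff _ hε]
    intro x
    simpa [k, dist_eq_norm] using hv x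

end Msa

end Vale.Agent.P078G
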